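import Vale.Agent.P143.Main

/-!
# Hand-in for P143: the free uniform spanning forest is a factor of i.i.d. labels
-/

open MeasureTheory Filter Topology Function unitInterval

namespace Vale.Agent.Results.P143.FreeForestFactor

open Vale.Agent.P143

theorem result :
    (∃ Φ : (ℕ → ℕ → Bool) → (ℕ → I) → (Sym2 ℕ → Bool),
      Measurable (fun p : (ℕ → ℕ → Bool) × (ℕ → I) => Φ p.1 p.2) ∧
      (∀ (π : Equiv.Perm ℕ) (a : ℕ → ℕ → Bool) (U : ℕ → I) (e : Sym2 ℕ),
        Φ (fun v w => a (π.symm v) (π.symm w)) (fun v => U (π.symm v)) (e.map π) = Φ a U e) ∧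
      ∀ (G : SimpleGraph ℕ) [G.LocallyFinite], G.Connected →
        IsFUSF G ((vertexLabels ℕ).map (Φ (adjFun G)))) ∧
    (∀ (V : Type) (G : SimpleGraph V) [G.LocallyFinite], G.Connected →
      ∃ Φ : (V → I) → (Sym2 V → Bool), Measurable Φ ∧
        (∀ (g : G ≃g G) (U : V → I) (e : Sym2 V),
          Φ (fun v => U (g.symm v)) (e.map g) = Φ U e) ∧
        IsFUSF G ((vertexLabels V).map Φ)) ∧
    (∀ (Γ : Type) [Group Γ] (S : Finset Γ), Subgroup.closure (S : Set Γ) = ⊤ →
      ∃ Φ : (Γ → I) → (Sym2 Γ → Bool), Measurable Φ ∧
        (∀ (γ : Γ) (U : Γ → I) (e : Sym2 Γ),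
          Φ (fun x => U (γ⁻¹ * x)) (e.map (γ * ·)) = Φ U e) ∧
        IsFUSF (SimpleGraph.mulCayley (S : Set Γ)) ((vertexLabels Γ).map Φ)) := by
  refine ⟨⟨forestFactor, measurable_forestFactor, fun π a U e => ?_, fun G _ hG => ?_⟩,
    fun V G _ hG => ?_, fun Γ _ S hS => ?_⟩
  · exact forestFactor_map π (fun v w => by simp) (fun v => by simp) e
  · exact isFUSF_forest G hG
  · have := countable_of_connected G hG
    exact ⟨forestFactor (adjFun G),
      measurable_forestFactor.comp (measurable_const.prodMk measurable_id),
      forestFactor_aut G, isFUSF_forest G hG⟩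
  · classical
    set G := SimpleGraph.mulCayley (S : Set Γ) with hG'
    have hfin : ∀ u, (G.neighborSet u).Finite := fun u => by
      refine ((S.finite_toSet.image (u * ·)).union
        (S.finite_toSet.image (fun s => u * s⁻¹))).subset fun v hv => ?_
      rw [SimpleGraph.mem_neighborSet, hG', SimpleGraph.mulCayley_adj] at hv
      rcases hv.2 with h | h
      · exact Or.inl ⟨_, h, by simp⟩
      · exact Or.inr ⟨_, h, by simp⟩
    letI : G.LocallyFinite := fun u => (hfin u).fintype
    have hreach : ∀ x : Γ, ∀ b, G.Reachable b (b * x) := by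
      intro x
      have hx : x ∈ Subgroup.closure (S : Set Γ) := by rw [hS]; exact Subgroup.mem_top x
      induction hx using Subgroup.closure_induction with
      | mem y hy =>
        intro b
        by_cases h : b = b * y
        · rw [← h]
        · exact (show G.Adj b (b * y) by
            rw [hG', SimpleGraph.mulCayley_adj]; exact ⟨h, Or.inl (by simpa using hy)⟩).reachable
      | one => intro b; rw [mul_one]
      | mul y z _ _ ihy ihz =>
        intro b
        rw [← mul_assoc]
        exact (ihy b).trans (ihz _)
      | inv y _ ih =>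
        intro b
        have := ih (b * y⁻¹)
        rw [inv_mul_cancel_right] at this
        exact this.symm
    have hconn : G.Connected := @SimpleGraph.Connected.mk _ _
      (fun u v => by simpa using hreach (u⁻¹ * v) u) ⟨1⟩
    have := countable_of_connected G hconn
    refine ⟨forestFactor (adjFun G),
      measurable_forestFactor.comp (measurable_const.prodMk measurable_id), fun γ U e => ?_,
      isFUSF_forest G hconn⟩
    exact forestFactor_map (Equiv.mulLeft γ) (fun v w => by simp [adjFun, hG']) (fun v => by simp) e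

end Vale.Agent.Results.P143.FreeForestFactor
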